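import Vale.Agent.P355.H138.Sos

/-! Graph functions of an array with `m` marks and six vertices on each side.

`x : Vx m → Vx m → ℂ` has unimodular entries; `Sum.inl` are the marks, `Sum.inr` the six vertices.
A graph is an exponent matrix `n : Fin m ⊕ P → Fin m ⊕ Q → ℤ`; the marks are fixed, the vertices
in `P` and `Q` are averaged over all six rows (columns). -/

namespace Vale.Agent.P355.H129T

open Finset Vale.Agent.P355
open Vale.Agent.P355.H138 (pw6 r6 pw6_nonneg pw6_le PSD par6 pw6_mul)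

set_option linter.unusedSectionVars false

/-- indices of the array: marks and vertices. -/
abbrev Vx (m : ℕ) : Type := Fin m ⊕ Fin 6

variable {m : ℕ}

/-- unimodular entries. -/
structure Uni (x : Vx m → Vx m → ℂ) : Prop where
  unit : ∀ r c, x r c * star (x r c) = 1

variable {x : Vx m → Vx m → ℂ}

theorem Uni.transpose (h : Uni x) : Uni (fun r c => x c r) := ⟨fun r c => h.unit c r⟩

theorem Uni.ne (h : Uni x) (r c : Vx m) : x r c ≠ 0 := by
  intro h0; have := h.unit r c; rw [h0] at this; simp at this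

theorem Uni.inv (h : Uni x) (r c : Vx m) : (x r c)⁻¹ = star (x r c) := by
  rw [inv_eq_of_mul_eq_one_right (h.unit r c)]

theorem Uni.nrm (h : Uni x) (r c : Vx m) : ‖x r c‖ = 1 := by
  have h1 := h.unit r c
  have h2 : ‖x r c‖ * ‖x r c‖ = 1 := by
    have := congrArg (fun z : ℂ => ‖z‖) h1
    rwa [norm_mul, norm_star, norm_one] at this
  nlinarith [norm_nonneg (x r c)]

theorem Uni.star_zpow (h : Uni x) (r c : Vx m) (k : ℤ) :
    star (x r c ^ k) = x r c ^ (-k) := by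
  rw [zpow_neg, ← inv_zpow, h.inv, star_zpow₀]

variable {P Q : Type} [Fintype P] [Fintype Q] [DecidableEq P] [DecidableEq Q]

/-- extension of a labelling to the marks. -/
def ex {P : Type} (φ : P → Fin 6) : Fin m ⊕ P → Vx m := Sum.map id φ

@[simp] theorem ex_inl {P : Type} (φ : P → Fin 6) (i : Fin m) : ex φ (.inl i) = .inl i := rfl
@[simp] theorem ex_inr {P : Type} (φ : P → Fin 6) (p : P) : ex (m := m) φ (.inr p) = .inr (φ p) :=
  rfl

/-- the monomial. -/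
noncomputable def mon (x : Vx m → Vx m → ℂ) (n : Fin m ⊕ P → Fin m ⊕ Q → ℤ)
    (φ : P → Fin 6) (ψ : Q → Fin 6) : ℂ :=
  ∏ p, ∏ q, x (ex φ p) (ex ψ q) ^ n p q

/-- the graph function. -/
noncomputable def gv (x : Vx m → Vx m → ℂ) (n : Fin m ⊕ P → Fin m ⊕ Q → ℤ) : ℂ :=
  (6⁻¹ : ℂ) ^ (Fintype.card P + Fintype.card Q) * ∑ φ : P → Fin 6, ∑ ψ : Q → Fin 6, mon x n φ ψ

theorem mon_swap (n : Fin m ⊕ P → Fin m ⊕ Q → ℤ) (φ : P → Fin 6) (ψ : Q → Fin 6) :
    mon x n φ ψ = mon (fun r c => x c r) (fun q p => n p q) ψ φ := by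
  unfold mon; rw [Finset.prod_comm]

theorem gv_swap (n : Fin m ⊕ P → Fin m ⊕ Q → ℤ) :
    gv x n = gv (fun r c => x c r) (fun q p => n p q) := by
  unfold gv
  rw [Finset.sum_comm, add_comm (Fintype.card P)]
  simp only [mon_swap (x := x) n]

theorem Uni.norm_mon (h : Uni x) (n : Fin m ⊕ P → Fin m ⊕ Q → ℤ) (φ : P → Fin 6)
    (ψ : Q → Fin 6) : ‖mon x n φ ψ‖ = 1 := by
  unfold mon
  simp [norm_prod, norm_zpow, h.nrm]

theorem Uni.norm_gv_le (h : Uni x) (n : Fin m ⊕ P → Fin m ⊕ Q → ℤ) : ‖gv x n‖ ≤ 1 := by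
  unfold gv
  rw [norm_mul, norm_pow, norm_inv]
  have h1 : ‖∑ φ : P → Fin 6, ∑ ψ : Q → Fin 6, mon x n φ ψ‖
      ≤ ∑ φ : P → Fin 6, ∑ ψ : Q → Fin 6, (1 : ℝ) := by
    refine (norm_sum_le _ _).trans (Finset.sum_le_sum fun φ _ => ?_)
    refine (norm_sum_le _ _).trans (Finset.sum_le_sum fun ψ _ => ?_)
    rw [h.norm_mon]
  have h2 : ∑ φ : P → Fin 6, ∑ ψ : Q → Fin 6, (1 : ℝ)
      = 6 ^ (Fintype.card P + Fintype.card Q) := by
    simp [pow_add, mul_comm]
  have h6 : ‖(6 : ℂ)‖ = 6 := by simp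
  rw [h6]
  calc _ ≤ (6⁻¹ : ℝ) ^ (Fintype.card P + Fintype.card Q) * 6 ^ (Fintype.card P + Fintype.card Q) := by
        gcongr; exact h1.trans h2.le
    _ = 1 := by rw [← mul_pow]; norm_num

theorem Uni.star_mon (h : Uni x) (n : Fin m ⊕ P → Fin m ⊕ Q → ℤ) (φ : P → Fin 6)
    (ψ : Q → Fin 6) : star (mon x n φ ψ) = mon x (fun p q => - n p q) φ ψ := by
  unfold mon
  simp only [star_prod, h.star_zpow]

theorem Uni.star_gv (h : Uni x) (n : Fin m ⊕ P → Fin m ⊕ Q → ℤ) :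
    star (gv x n) = gv x (fun p q => - n p q) := by
  unfold gv
  simp only [star_mul', star_pow, star_sum, h.star_mon]
  simp

theorem Uni.mon_add (h : Uni x) (n k : Fin m ⊕ P → Fin m ⊕ Q → ℤ) (φ : P → Fin 6)
    (ψ : Q → Fin 6) : mon x (fun p q => n p q + k p q) φ ψ = mon x n φ ψ * mon x k φ ψ := by
  unfold mon
  simp only [zpow_add₀ (h.ne _ _), Finset.prod_mul_distrib]

theorem Uni.mon_sub (h : Uni x) (n k : Fin m ⊕ P → Fin m ⊕ Q → ℤ) (φ : P → Fin 6)
    (ψ : Q → Fin 6) :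
    mon x (fun p q => n p q - k p q) φ ψ = mon x n φ ψ * star (mon x k φ ψ) := by
  rw [h.star_mon, ← h.mon_add]
  simp only [sub_eq_add_neg]

/-! ### Embedding of index types, glueing -/

/-- extension of a map of vertices to the marks. -/
def ev {P P' : Type} (ι : P → P') : Fin m ⊕ P → Fin m ⊕ P' := Sum.map id ι

theorem ev_inj {P P' : Type} {ι : P → P'} (hι : Function.Injective ι) :
    Function.Injective (ev (m := m) ι) :=
  Sum.map_injective.2 ⟨Function.injective_id, hι⟩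

theorem mon_embed {P' Q' : Type} [Fintype P'] [Fintype Q'] [DecidableEq P'] [DecidableEq Q']
    (ι : P → P') (κ : Q → Q') (hι : Function.Injective ι) (hκ : Function.Injective κ)
    (n : Fin m ⊕ P → Fin m ⊕ Q → ℤ) (n' : Fin m ⊕ P' → Fin m ⊕ Q' → ℤ)
    (h : ∀ p q, n' (ev ι p) (ev κ q) = n p q)
    (h1 : ∀ p', p' ∉ Set.range (ev (m := m) ι) → ∀ q, n' p' q = 0)
    (h2 : ∀ q', q' ∉ Set.range (ev (m := m) κ) → ∀ p, n' p q' = 0)
    (φ : P' → Fin 6) (ψ : Q' → Fin 6) :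
    mon x n' φ ψ = mon x n (φ ∘ ι) (ψ ∘ κ) := by
  unfold mon
  refine (Fintype.prod_of_injective (ev ι) (ev_inj hι) _ _
    (fun p' hp' => ?_) (fun p => ?_)).symm
  · exact Finset.prod_eq_one fun q _ => by rw [h1 p' hp', zpow_zero]
  · refine Fintype.prod_of_injective (ev κ) (ev_inj hκ) _ _
      (fun q' hq' => ?_) (fun q => ?_)
    · rw [h2 q' hq', zpow_zero]
    · rw [h]
      congr 1
      cases p <;> cases q <;> rfl

variable {R S : Type} [Fintype R] [Fintype S] [DecidableEq R] [DecidableEq S]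

/-- labelled graph function (flag): `P`, `Q` labelled, `R`, `S` internal vertices. -/
noncomputable def fl (x : Vx m → Vx m → ℂ) (f : Fin m ⊕ (P ⊕ R) → Fin m ⊕ (Q ⊕ S) → ℤ)
    (α : P → Fin 6) (β : Q → Fin 6) : ℂ :=
  (6⁻¹ : ℂ) ^ (Fintype.card R + Fintype.card S) *
    ∑ ρ : R → Fin 6, ∑ σ : S → Fin 6, mon x f (Sum.elim α ρ) (Sum.elim β σ)

/-- position of a vertex of the glued graph in the left factor. -/
def pL {P R : Type} : Fin m ⊕ (P ⊕ (R ⊕ R)) → Option (Fin m ⊕ (P ⊕ R))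
  | .inl i => some (.inl i)
  | .inr (.inl p) => some (.inr (.inl p))
  | .inr (.inr (.inl r)) => some (.inr (.inr r))
  | .inr (.inr (.inr _)) => none

/-- position of a vertex of the glued graph in the right factor. -/
def pR {P R : Type} : Fin m ⊕ (P ⊕ (R ⊕ R)) → Option (Fin m ⊕ (P ⊕ R))
  | .inl i => some (.inl i)
  | .inr (.inl p) => some (.inr (.inl p))
  | .inr (.inr (.inl _)) => none
  | .inr (.inr (.inr r)) => some (.inr (.inr r))

/-- extension by zero. -/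
def ext0 {A B A' B' : Type} (f : A → B → ℤ) (a : A' → Option A) (b : B' → Option B) :
    A' → B' → ℤ :=
  fun p q => match a p, b q with
    | some p', some q' => f p' q'
    | _, _ => 0

/-- the glued graph of `f` and the conjugate of `g`. -/
def glue (f g : Fin m ⊕ (P ⊕ R) → Fin m ⊕ (Q ⊕ S) → ℤ) :
    Fin m ⊕ (P ⊕ (R ⊕ R)) → Fin m ⊕ (Q ⊕ (S ⊕ S)) → ℤ :=
  fun p q => ext0 f pL pL p q - ext0 g pR pR p q

theorem mon_extL (f : Fin m ⊕ (P ⊕ R) → Fin m ⊕ (Q ⊕ S) → ℤ) (α : P → Fin 6) (ρ ρ' : R → Fin 6)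
    (β : Q → Fin 6) (σ σ' : S → Fin 6) :
    mon x (ext0 f pL pL) (Sum.elim α (Sum.elim ρ ρ')) (Sum.elim β (Sum.elim σ σ'))
      = mon x f (Sum.elim α ρ) (Sum.elim β σ) := by
  rw [mon_embed (Sum.map id Sum.inl) (Sum.map id Sum.inl)
    (Sum.map_injective.2 ⟨Function.injective_id, Sum.inl_injective⟩)
    (Sum.map_injective.2 ⟨Function.injective_id, Sum.inl_injective⟩) f (ext0 f pL pL)]
  · congr 1 <;> · funext i; cases i <;> rfl
  · intro p q
    rcases p with _ | p | p <;> rcases q with _ | q | q <;> rfl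
  · intro p' hp' q
    rcases p' with i | p | p | p
    · exact absurd ⟨.inl i, rfl⟩ hp'
    · exact absurd ⟨.inr (.inl p), rfl⟩ hp'
    · exact absurd ⟨.inr (.inr p), rfl⟩ hp'
    · rcases q with _ | q | q | q <;> rfl
  · intro q' hq' p
    rcases q' with i | q | q | q
    · exact absurd ⟨.inl i, rfl⟩ hq'
    · exact absurd ⟨.inr (.inl q), rfl⟩ hq'
    · exact absurd ⟨.inr (.inr q), rfl⟩ hq'
    · rcases p with _ | p | p | p <;> rfl

theorem mon_extR (f : Fin m ⊕ (P ⊕ R) → Fin m ⊕ (Q ⊕ S) → ℤ) (α : P → Fin 6) (ρ ρ' : R → Fin 6)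
    (β : Q → Fin 6) (σ σ' : S → Fin 6) :
    mon x (ext0 f pR pR) (Sum.elim α (Sum.elim ρ ρ')) (Sum.elim β (Sum.elim σ σ'))
      = mon x f (Sum.elim α ρ') (Sum.elim β σ') := by
  rw [mon_embed (Sum.map id Sum.inr) (Sum.map id Sum.inr)
    (Sum.map_injective.2 ⟨Function.injective_id, Sum.inr_injective⟩)
    (Sum.map_injective.2 ⟨Function.injective_id, Sum.inr_injective⟩) f (ext0 f pR pR)]
  · congr 1 <;> · funext i; cases i <;> rfl
  · intro p q
    rcases p with _ | p | p <;> rcases q with _ | q | q <;> rfl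
  · intro p' hp' q
    rcases p' with i | p | p | p
    · exact absurd ⟨.inl i, rfl⟩ hp'
    · exact absurd ⟨.inr (.inl p), rfl⟩ hp'
    · rcases q with _ | q | q | q <;> rfl
    · exact absurd ⟨.inr (.inr p), rfl⟩ hp'
  · intro q' hq' p
    rcases q' with i | q | q | q
    · exact absurd ⟨.inl i, rfl⟩ hq'
    · exact absurd ⟨.inr (.inl q), rfl⟩ hq'
    · rcases p with _ | p | p | p <;> rfl
    · exact absurd ⟨.inr (.inr q), rfl⟩ hq'

/-- average over the labels of `f * conj g` is the graph function of the glued graph. -/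
theorem Uni.fl_glue (h : Uni x) (f g : Fin m ⊕ (P ⊕ R) → Fin m ⊕ (Q ⊕ S) → ℤ) :
    (6⁻¹ : ℂ) ^ (Fintype.card P + Fintype.card Q) * ∑ α : P → Fin 6, ∑ β : Q → Fin 6,
      fl x f α β * star (fl x g α β) = gv x (glue f g) := by
  have key : ∑ φ : P ⊕ (R ⊕ R) → Fin 6, ∑ ψ : Q ⊕ (S ⊕ S) → Fin 6, mon x (glue f g) φ ψ
      = ∑ α : P → Fin 6, ∑ β : Q → Fin 6,
        (∑ ρ : R → Fin 6, ∑ σ : S → Fin 6, mon x f (Sum.elim α ρ) (Sum.elim β σ)) *
        star (∑ ρ : R → Fin 6, ∑ σ : S → Fin 6, mon x g (Sum.elim α ρ) (Sum.elim β σ)) := by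
    rw [H138.sum_sumType]
    refine Finset.sum_congr rfl fun α _ => ?_
    simp only [H138.sum_sumType]
    have : ∀ (ρ ρ' : R → Fin 6) (β : Q → Fin 6) (σ σ' : S → Fin 6),
        mon x (glue f g) (Sum.elim α (Sum.elim ρ ρ')) (Sum.elim β (Sum.elim σ σ'))
        = mon x f (Sum.elim α ρ) (Sum.elim β σ) *
          star (mon x g (Sum.elim α ρ') (Sum.elim β σ')) := by
      intro ρ ρ' β σ σ'
      unfold glue
      rw [h.mon_sub, mon_extL, mon_extR]
    simp only [this]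
    have e0 : ∀ β : Q → Fin 6,
        (∑ ρ : R → Fin 6, ∑ σ : S → Fin 6, mon x f (Sum.elim α ρ) (Sum.elim β σ)) *
          star (∑ ρ : R → Fin 6, ∑ σ : S → Fin 6, mon x g (Sum.elim α ρ) (Sum.elim β σ))
        = ∑ ρ : R → Fin 6, ∑ ρ' : R → Fin 6, ∑ σ : S → Fin 6, ∑ σ' : S → Fin 6,
          mon x f (Sum.elim α ρ) (Sum.elim β σ) *
          star (mon x g (Sum.elim α ρ') (Sum.elim β σ')) := by
      intro β
      simp only [star_sum]
      rw [Finset.sum_mul_sum]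
      refine Finset.sum_congr rfl fun ρ _ => Finset.sum_congr rfl fun ρ' _ => ?_
      rw [Finset.sum_mul_sum]
    simp only [e0]
    calc _ = ∑ ρ : R → Fin 6, ∑ β : Q → Fin 6, ∑ ρ' : R → Fin 6, ∑ σ : S → Fin 6,
          ∑ σ' : S → Fin 6, mon x f (Sum.elim α ρ) (Sum.elim β σ) *
          star (mon x g (Sum.elim α ρ') (Sum.elim β σ')) :=
          Finset.sum_congr rfl fun ρ _ => Finset.sum_comm
      _ = _ := Finset.sum_comm
  have h6 : star (6 : ℂ) = 6 := by simp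
  unfold gv
  rw [key]
  unfold fl
  simp only [star_mul', star_pow, star_inv₀, h6]
  rw [Finset.mul_sum, Finset.mul_sum]
  refine Finset.sum_congr rfl fun α _ => ?_
  rw [Finset.mul_sum, Finset.mul_sum]
  refine Finset.sum_congr rfl fun β _ => ?_
  simp only [Fintype.card_sum, pow_add]
  ring

/-! ### Isolated vertices -/

section embed

variable {P' Q' : Type} [Fintype P'] [Fintype Q'] [DecidableEq P'] [DecidableEq Q']

theorem gv_embed (ι : P → P') (κ : Q → Q') (hι : Function.Injective ι)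
    (hκ : Function.Injective κ)
    (n : Fin m ⊕ P → Fin m ⊕ Q → ℤ) (n' : Fin m ⊕ P' → Fin m ⊕ Q' → ℤ)
    (h : ∀ p q, n' (ev ι p) (ev κ q) = n p q)
    (h1 : ∀ p', p' ∉ Set.range (ev (m := m) ι) → ∀ q, n' p' q = 0)
    (h2 : ∀ q', q' ∉ Set.range (ev (m := m) κ) → ∀ p, n' p q' = 0) :
    gv x n' = gv x n := by
  unfold gv
  simp only [mon_embed ι κ hι hκ n n' h h1 h2]
  rw [pow_add, pow_add, mul_assoc, mul_assoc]
  rw [Finset.mul_sum (a := (6⁻¹ : ℂ) ^ Fintype.card Q'),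
    Finset.mul_sum (a := (6⁻¹ : ℂ) ^ Fintype.card Q)]
  have h3 : ∀ φ' : P' → Fin 6, (6⁻¹ : ℂ) ^ Fintype.card Q' *
      ∑ ψ' : Q' → Fin 6, mon x n (φ' ∘ ι) (ψ' ∘ κ)
      = (6⁻¹ : ℂ) ^ Fintype.card Q * ∑ ψ : Q → Fin 6, mon x n (φ' ∘ ι) ψ := fun φ' =>
    H138.sum_comp_inj κ hκ (fun ψ => mon x n (φ' ∘ ι) ψ)
  simp only [h3]
  exact H138.sum_comp_inj ι hι
    (fun φ => (6⁻¹ : ℂ) ^ Fintype.card Q * ∑ ψ : Q → Fin 6, mon x n φ ψ)

end embed

/-! ### Sums of squares -/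

theorem Uni.sos_one (h : Uni x) (N : ℕ) (G : ℕ → ℕ → ℝ) (hG : PSD N G) (b : ℕ → Bool)
    (f : ℕ → Fin m ⊕ (P ⊕ R) → Fin m ⊕ (Q ⊕ S) → ℤ) :
    0 ≤ ∑ i ∈ range N, ∑ j ∈ range N, G i j * (pw6 (b i) * pw6 (b j)) *
      (gv x (glue (f i) (f j))).re := by
  have h1 : ∀ i j, (gv x (glue (f i) (f j))).re
      = (6⁻¹ : ℝ) ^ (Fintype.card P + Fintype.card Q) * ∑ α : P → Fin 6, ∑ β : Q → Fin 6,
        (fl x (f i) α β * star (fl x (f j) α β)).re := by
    intro i j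
    rw [← h.fl_glue]
    have : ((6⁻¹ : ℂ) ^ (Fintype.card P + Fintype.card Q))
        = (((6⁻¹ : ℝ) ^ (Fintype.card P + Fintype.card Q) : ℝ) : ℂ) := by push_cast; rfl
    rw [this, Complex.re_ofReal_mul, Complex.re_sum]
    simp only [Complex.re_sum]
  have h2 : ∑ i ∈ range N, ∑ j ∈ range N, G i j * (pw6 (b i) * pw6 (b j)) *
      (gv x (glue (f i) (f j))).re
      = (6⁻¹ : ℝ) ^ (Fintype.card P + Fintype.card Q) * ∑ α : P → Fin 6, ∑ β : Q → Fin 6,
        ∑ i ∈ range N, ∑ j ∈ range N, G i j *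
          (((pw6 (b i) : ℂ) * fl x (f i) α β) * star ((pw6 (b j) : ℂ) * fl x (f j) α β)).re := by
    have h3 : ∀ (α : P → Fin 6) (β : Q → Fin 6) (i j : ℕ),
        (((pw6 (b i) : ℂ) * fl x (f i) α β) * star ((pw6 (b j) : ℂ) * fl x (f j) α β)).re
        = (pw6 (b i) * pw6 (b j)) * (fl x (f i) α β * star (fl x (f j) α β)).re := by
      intro α β i j
      have e1 : ((pw6 (b i) : ℂ) * fl x (f i) α β) * star ((pw6 (b j) : ℂ) * fl x (f j) α β)
          = ((pw6 (b i) * pw6 (b j) : ℝ) : ℂ) * (fl x (f i) α β * star (fl x (f j) α β)) := by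
        rw [star_mul']
        have : star ((pw6 (b j) : ℝ) : ℂ) = ((pw6 (b j) : ℝ) : ℂ) := Complex.conj_ofReal _
        rw [this]; push_cast; ring
      rw [e1, Complex.re_ofReal_mul]
    simp only [h1, h3]
    symm
    rw [Finset.mul_sum]
    have h4 : ∀ α : P → Fin 6, ∑ β : Q → Fin 6, ∑ i ∈ range N, ∑ j ∈ range N,
        G i j * (pw6 (b i) * pw6 (b j) * (fl x (f i) α β * star (fl x (f j) α β)).re)
        = ∑ i ∈ range N, ∑ j ∈ range N, ∑ β : Q → Fin 6,
        G i j * (pw6 (b i) * pw6 (b j) * (fl x (f i) α β * star (fl x (f j) α β)).re) := by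
      intro α
      rw [Finset.sum_comm]
      exact Finset.sum_congr rfl fun i _ => Finset.sum_comm
    simp only [h4, ← Finset.mul_sum]
    rw [Finset.sum_comm, Finset.mul_sum]
    refine Finset.sum_congr rfl fun i _ => ?_
    rw [Finset.sum_comm, Finset.mul_sum]
    refine Finset.sum_congr rfl fun j _ => ?_
    simp only [← Finset.mul_sum]
    ring
  rw [h2]
  refine mul_nonneg (by positivity) (Finset.sum_nonneg fun α _ => Finset.sum_nonneg fun β _ => ?_)
  exact hG fun i => (pw6 (b i) : ℂ) * fl x (f i) α β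

/-- The symmetrised sum of squares. -/
theorem Uni.sos (h : Uni x) (N : ℕ) (G : ℕ → ℕ → ℝ) (hG : PSD N G) (b : ℕ → Bool)
    (f : ℕ → Fin m ⊕ (P ⊕ R) → Fin m ⊕ (Q ⊕ S) → ℤ) :
    0 ≤ ∑ i ∈ range N, ∑ j ∈ range N, G i j * (pw6 (b i) * pw6 (b j)) *
      (((gv x (glue (f i) (f j))).re + (gv (fun r c => x c r) (glue (f i) (f j))).re) / 2) := by
  have h1 := h.sos_one N G hG b f
  have h2 := h.transpose.sos_one N G hG b f
  have h3 := add_nonneg h1 h2
  rw [← Finset.sum_add_distrib] at h3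
  simp only [← Finset.sum_add_distrib] at h3
  have h4 : ∑ i ∈ range N, ∑ j ∈ range N, G i j * (pw6 (b i) * pw6 (b j)) *
      (((gv x (glue (f i) (f j))).re + (gv (fun r c => x c r) (glue (f i) (f j))).re) / 2)
      = (1 / 2) * ∑ i ∈ range N, ∑ j ∈ range N, (G i j * (pw6 (b i) * pw6 (b j)) *
      (gv x (glue (f i) (f j))).re + G i j * (pw6 (b i) * pw6 (b j)) *
      (gv (fun r c => x c r) (glue (f i) (f j))).re) := by
    rw [Finset.mul_sum]
    refine Finset.sum_congr rfl fun i _ => ?_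
    rw [Finset.mul_sum]
    exact Finset.sum_congr rfl fun j _ => by ring
  rw [h4]
  linarith

/-! ### Values -/

/-- real value of a graph, symmetrised under transposition. -/
noncomputable def rv (x : Vx m → Vx m → ℂ) (b : Bool) (n : Fin m ⊕ P → Fin m ⊕ Q → ℤ) : ℝ :=
  pw6 b * (((gv x n).re + (gv (fun r c => x c r) n).re) / 2)

theorem rv_swap (b : Bool) (n : Fin m ⊕ P → Fin m ⊕ Q → ℤ) :
    rv x b (fun q p => n p q) = rv x b n := by
  unfold rv
  rw [gv_swap (x := x) n, gv_swap (x := fun r c => x c r) n, add_comm]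

theorem Uni.rv_neg (h : Uni x) (b : Bool) (n : Fin m ⊕ P → Fin m ⊕ Q → ℤ) :
    rv x b (fun p q => - n p q) = rv x b n := by
  unfold rv
  rw [← h.star_gv, ← h.transpose.star_gv]
  simp

theorem Uni.abs_rv_le (h : Uni x) (b : Bool) (n : Fin m ⊕ P → Fin m ⊕ Q → ℤ) :
    |rv x b n| ≤ 5 / 2 := by
  unfold rv
  have h1 : |(gv x n).re| ≤ 1 := (Complex.abs_re_le_norm _).trans (h.norm_gv_le n)
  have h2 : |(gv (fun r c => x c r) n).re| ≤ 1 :=
    (Complex.abs_re_le_norm _).trans (h.transpose.norm_gv_le n)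
  have h3 : |((gv x n).re + (gv (fun r c => x c r) n).re) / 2| ≤ 1 := by
    rw [abs_le] at *; constructor <;> linarith [h1.1, h1.2, h2.1, h2.2]
  rw [abs_mul, abs_of_nonneg (pw6_nonneg b)]
  calc _ ≤ (5 / 2 : ℝ) * 1 := mul_le_mul (pw6_le b) h3 (abs_nonneg _) (by norm_num)
    _ = _ := by norm_num

theorem pair_eq {P Q : Type} [Fintype P] [Fintype Q] [DecidableEq P] [DecidableEq Q]
    (b c : Bool) (n : Fin m ⊕ P → Fin m ⊕ Q → ℤ) :
    (pw6 b * pw6 c) * (((gv x n).re + (gv (fun r c => x c r) n).re) / 2)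
      = (par6 b c : ℝ) * rv x (xor b c) n := by
  rw [pw6_mul]; unfold rv; ring

end Vale.Agent.P355.H129T
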