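import Vale.Agent.P355.H129T.Gv

/-! Injective classes for arrays with `m` marks: averages over all pairs of permutations of the
monomial of an exponent matrix; label-only sums of squares; the row scheme. -/

namespace Vale.Agent.P355.H129T

open Finset Vale.Agent.P355
open Vale.Agent.P355.H138 (pw6 r6 pw6_nonneg pw6_le PSD par6 pw6_mul)

set_option linter.unusedSectionVars false

variable {m : ℕ} {x : Vx m → Vx m → ℂ}

/-- exponent matrices. -/
abbrev Mt (m : ℕ) : Type := Vx m → Vx m → ℤ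

/-- permutations of the six rows / columns. -/
abbrev Pm : Type := Equiv.Perm (Fin 6)

/-- value of an exponent matrix: average over all pairs of permutations. -/
noncomputable def iv (x : Vx m → Vx m → ℂ) (M : Mt m) : ℂ :=
  (518400⁻¹ : ℂ) * ∑ σ : Pm, ∑ τ : Pm, mon x M σ τ

theorem card_pm : (Finset.univ : Finset Pm).card = 720 := by
  rw [Finset.card_univ, Fintype.card_perm]; rfl

theorem norm_iv_le (h : Uni x) (M : Mt m) : ‖iv x M‖ ≤ 1 := by
  unfold iv
  rw [norm_mul, norm_inv]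
  have h1 : ‖∑ σ : Pm, ∑ τ : Pm, mon x M σ τ‖ ≤ ∑ σ : Pm, ∑ τ : Pm, (1 : ℝ) := by
    refine (norm_sum_le _ _).trans (Finset.sum_le_sum fun φ _ => ?_)
    refine (norm_sum_le _ _).trans (Finset.sum_le_sum fun ψ _ => ?_)
    rw [h.norm_mon]
  have h2 : ∑ σ : Pm, ∑ τ : Pm, (1 : ℝ) = 518400 := by
    rw [Finset.sum_const, Finset.sum_const, card_pm]; norm_num
  rw [h2] at h1
  have h6 : ‖(518400 : ℂ)‖ = 518400 := by simp
  rw [h6]
  calc _ ≤ (518400⁻¹ : ℝ) * 518400 := by gcongr
    _ = 1 := by norm_num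

theorem star_iv (h : Uni x) (M : Mt m) : star (iv x M) = iv x (fun p q => - M p q) := by
  unfold iv
  simp only [star_mul', star_sum, h.star_mon]
  simp

theorem iv_swap (M : Mt m) : iv x M = iv (fun r c => x c r) (fun q p => M p q) := by
  unfold iv
  rw [Finset.sum_comm]
  simp only [mon_swap (x := x) M]

theorem mon_perm (M : Mt m) (σ τ φ ψ : Pm) :
    mon x (fun p q => M (ev σ p) (ev τ q)) φ ψ = mon x M (φ * σ⁻¹ : Pm) (ψ * τ⁻¹ : Pm) := by
  unfold mon
  refine Fintype.prod_equiv (Equiv.sumCongr (Equiv.refl _) σ) _ _ fun p => ?_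
  refine Fintype.prod_equiv (Equiv.sumCongr (Equiv.refl _) τ) _ _ fun q => ?_
  have e1 : ex (⇑(φ * σ⁻¹)) (Equiv.sumCongr (Equiv.refl (Fin m)) σ p) = ex φ p := by
    cases p with
    | inl i => rfl
    | inr p => simp
  have e2 : ex (⇑(ψ * τ⁻¹)) (Equiv.sumCongr (Equiv.refl (Fin m)) τ q) = ex ψ q := by
    cases q with
    | inl i => rfl
    | inr q => simp
  rw [e1, e2]
  rfl

theorem iv_perm (M : Mt m) (σ τ : Pm) :
    iv x (fun p q => M (ev σ p) (ev τ q)) = iv x M := by
  unfold iv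
  congr 1
  simp only [mon_perm]
  refine Fintype.sum_equiv (Equiv.mulRight σ⁻¹) _ _ fun φ => ?_
  exact Fintype.sum_equiv (Equiv.mulRight τ⁻¹) _ _ fun ψ => rfl

/-- real value of an exponent matrix, symmetrised under transposition. -/
noncomputable def riv (x : Vx m → Vx m → ℂ) (b : Bool) (M : Mt m) : ℝ :=
  pw6 b * (((iv x M).re + (iv (fun r c => x c r) M).re) / 2)

theorem riv_swap (b : Bool) (M : Mt m) : riv x b (fun q p => M p q) = riv x b M := by
  unfold riv
  rw [iv_swap (x := x) M, iv_swap (x := fun r c => x c r) M, add_comm]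

theorem riv_neg (h : Uni x) (b : Bool) (M : Mt m) : riv x b (fun p q => - M p q) = riv x b M := by
  unfold riv
  rw [← star_iv h, ← star_iv h.transpose]
  simp

theorem riv_perm (b : Bool) (M : Mt m) (σ τ : Pm) :
    riv x b (fun p q => M (ev σ p) (ev τ q)) = riv x b M := by
  unfold riv; rw [iv_perm, iv_perm]

theorem abs_riv_le (h : Uni x) (b : Bool) (M : Mt m) : |riv x b M| ≤ 5 / 2 := by
  unfold riv
  have h1 : |(iv x M).re| ≤ 1 := (Complex.abs_re_le_norm _).trans (norm_iv_le h M)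
  have h2 : |(iv (fun r c => x c r) M).re| ≤ 1 :=
    (Complex.abs_re_le_norm _).trans (norm_iv_le h.transpose M)
  have h3 : |((iv x M).re + (iv (fun r c => x c r) M).re) / 2| ≤ 1 := by
    rw [abs_le] at *; constructor <;> linarith [h1.1, h1.2, h2.1, h2.2]
  rw [abs_mul, abs_of_nonneg (pw6_nonneg b)]
  calc _ ≤ (5 / 2 : ℝ) * 1 := mul_le_mul (pw6_le b) h3 (abs_nonneg _) (by norm_num)
    _ = _ := by norm_num

/-! ### Label-only sums of squares -/

theorem iv_sos (h : Uni x) (N : ℕ) (G : ℕ → ℕ → ℝ) (hG : PSD N G) (b : ℕ → Bool)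
    (f : ℕ → Mt m) :
    0 ≤ ∑ i ∈ range N, ∑ j ∈ range N, G i j * (pw6 (b i) * pw6 (b j)) *
      (iv x (fun p q => f i p q - f j p q)).re := by
  have h1 : ∀ i j, (iv x (fun p q => f i p q - f j p q)).re
      = (518400⁻¹ : ℝ) * ∑ σ : Pm, ∑ τ : Pm,
        (mon x (f i) σ τ * star (mon x (f j) σ τ)).re := by
    intro i j
    unfold iv
    have : (518400⁻¹ : ℂ) = ((518400⁻¹ : ℝ) : ℂ) := by push_cast; rfl
    rw [this, Complex.re_ofReal_mul, Complex.re_sum]
    simp only [Complex.re_sum, h.mon_sub]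
  have h3 : ∀ (σ τ : Pm) (i j : ℕ),
      (((pw6 (b i) : ℂ) * mon x (f i) σ τ) * star ((pw6 (b j) : ℂ) * mon x (f j) σ τ)).re
      = (pw6 (b i) * pw6 (b j)) * (mon x (f i) σ τ * star (mon x (f j) σ τ)).re := by
    intro σ τ i j
    have e1 : ((pw6 (b i) : ℂ) * mon x (f i) σ τ) * star ((pw6 (b j) : ℂ) * mon x (f j) σ τ)
        = ((pw6 (b i) * pw6 (b j) : ℝ) : ℂ) * (mon x (f i) σ τ * star (mon x (f j) σ τ)) := by
      rw [star_mul']
      have : star ((pw6 (b j) : ℝ) : ℂ) = ((pw6 (b j) : ℝ) : ℂ) := Complex.conj_ofReal _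
      rw [this]; push_cast; ring
    rw [e1, Complex.re_ofReal_mul]
  have h2 : ∑ i ∈ range N, ∑ j ∈ range N, G i j * (pw6 (b i) * pw6 (b j)) *
      (iv x (fun p q => f i p q - f j p q)).re
      = (518400⁻¹ : ℝ) * ∑ σ : Pm, ∑ τ : Pm,
        ∑ i ∈ range N, ∑ j ∈ range N, G i j *
          (((pw6 (b i) : ℂ) * mon x (f i) σ τ) * star ((pw6 (b j) : ℂ) * mon x (f j) σ τ)).re := by
    simp only [h1, h3]
    symm
    rw [Finset.mul_sum]
    have h4 : ∀ σ : Pm, ∑ τ : Pm, ∑ i ∈ range N, ∑ j ∈ range N,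
        G i j * (pw6 (b i) * pw6 (b j) * (mon x (f i) σ τ * star (mon x (f j) σ τ)).re)
        = ∑ i ∈ range N, ∑ j ∈ range N, ∑ τ : Pm,
        G i j * (pw6 (b i) * pw6 (b j) * (mon x (f i) σ τ * star (mon x (f j) σ τ)).re) := by
      intro σ
      rw [Finset.sum_comm]
      exact Finset.sum_congr rfl fun i _ => Finset.sum_comm
    simp only [h4, ← Finset.mul_sum]
    rw [Finset.sum_comm, Finset.mul_sum]
    refine Finset.sum_congr rfl fun i _ => ?_
    rw [Finset.sum_comm, Finset.mul_sum]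
    refine Finset.sum_congr rfl fun j _ => ?_
    simp only [← Finset.mul_sum]
    ring
  rw [h2]
  refine mul_nonneg (by positivity) (Finset.sum_nonneg fun σ _ => Finset.sum_nonneg fun τ _ => ?_)
  exact hG fun i => (pw6 (b i) : ℂ) * mon x (f i) σ τ

/-- a class function for which label-only squares are nonnegative. -/
def Sq (F : Bool → Mt m → ℝ) : Prop :=
  ∀ (N : ℕ) (G : ℕ → ℕ → ℝ), PSD N G → ∀ (b : ℕ → Bool) (f : ℕ → Mt m),
    0 ≤ ∑ i ∈ range N, ∑ j ∈ range N, G i j * ((par6 (b i) (b j) : ℝ) *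
      F (xor (b i) (b j)) (fun p q => f i p q - f j p q))

/-- **Label-only squares.** -/
theorem riv_sq (h : Uni x) : Sq (riv x) := by
  intro N G hG b f
  have h1 := iv_sos h N G hG b f
  have h2 := iv_sos h.transpose N G hG b f
  have h4 : ∑ i ∈ range N, ∑ j ∈ range N, G i j * ((par6 (b i) (b j) : ℝ) *
      riv x (xor (b i) (b j)) (fun p q => f i p q - f j p q))
      = (1 / 2) * (∑ i ∈ range N, ∑ j ∈ range N, G i j * (pw6 (b i) * pw6 (b j)) *
          (iv x (fun p q => f i p q - f j p q)).re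
        + ∑ i ∈ range N, ∑ j ∈ range N, G i j * (pw6 (b i) * pw6 (b j)) *
          (iv (fun r c => x c r) (fun p q => f i p q - f j p q)).re) := by
    rw [← Finset.sum_add_distrib, Finset.mul_sum]
    refine Finset.sum_congr rfl fun i _ => ?_
    rw [← Finset.sum_add_distrib, Finset.mul_sum]
    refine Finset.sum_congr rfl fun j _ => ?_
    have e := pw6_mul (b i) (b j)
    unfold riv
    rw [← mul_assoc (par6 (b i) (b j) : ℝ), ← e]
    ring
  rw [h4]
  linarith

/-- sums of class functions with nonnegative squares. -/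
theorem Sq.add {F F' : Bool → Mt m → ℝ} (h : Sq F) (h' : Sq F') :
    Sq (fun b M => F b M + F' b M) := by
  intro N G hG b f
  have h1 := h N G hG b f
  have h2 := h' N G hG b f
  have e : ∑ i ∈ range N, ∑ j ∈ range N, G i j * ((par6 (b i) (b j) : ℝ) *
      (F (xor (b i) (b j)) (fun p q => f i p q - f j p q)
        + F' (xor (b i) (b j)) (fun p q => f i p q - f j p q)))
      = ∑ i ∈ range N, ∑ j ∈ range N, G i j * ((par6 (b i) (b j) : ℝ) *
        F (xor (b i) (b j)) (fun p q => f i p q - f j p q))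
      + ∑ i ∈ range N, ∑ j ∈ range N, G i j * ((par6 (b i) (b j) : ℝ) *
        F' (xor (b i) (b j)) (fun p q => f i p q - f j p q)) := by
    rw [← Finset.sum_add_distrib]
    refine Finset.sum_congr rfl fun i _ => ?_
    rw [← Finset.sum_add_distrib]
    exact Finset.sum_congr rfl fun j _ => by ring
  rw [e]
  exact add_nonneg h1 h2

theorem Sq.smul {F : Bool → Mt m → ℝ} (h : Sq F) {c : ℝ} (hc : 0 ≤ c) :
    Sq (fun b M => c * F b M) := by
  intro N G hG b f
  have h1 := mul_nonneg hc (h N G hG b f)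
  rw [Finset.mul_sum] at h1
  refine h1.trans_eq (Finset.sum_congr rfl fun i _ => ?_)
  rw [Finset.mul_sum]
  exact Finset.sum_congr rfl fun j _ => by ring

/-! ### The row scheme -/

/-- add the row weights `w` in column `j`. -/
def addc (M : Mt m) (w : Vx m → ℤ) (j : Vx m) : Mt m :=
  fun p q => if q = j then M p q + w p else M p q

theorem mon_addc (h : Uni x) (M : Mt m) (w : Vx m → ℤ) (j : Vx m)
    (φ ψ : Fin 6 → Fin 6) :
    mon x (addc M w j) φ ψ = mon x M φ ψ * ∏ p, x (ex φ p) (ex ψ j) ^ w p := by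
  unfold mon
  rw [← Finset.prod_mul_distrib]
  refine Finset.prod_congr rfl fun p _ => ?_
  rw [← Finset.mul_prod_erase _ _ (Finset.mem_univ j),
    ← Finset.mul_prod_erase _ (fun q => x (ex φ p) (ex ψ q) ^ M p q) (Finset.mem_univ j)]
  have e1 : ∏ q ∈ Finset.univ.erase j, x (ex φ p) (ex ψ q) ^ addc M w j p q
      = ∏ q ∈ Finset.univ.erase j, x (ex φ p) (ex ψ q) ^ M p q := by
    refine Finset.prod_congr rfl fun q hq => ?_
    simp [addc, (Finset.mem_erase.1 hq).1]
  have e2 : addc M w j p j = M p j + w p := by simp [addc]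
  rw [e1, e2, zpow_add₀ (h.ne _ _)]
  ring

/-- contribution of a column vertex with weights `w`. -/
noncomputable def colw (x : Vx m → Vx m → ℂ) (φ : Fin 6 → Fin 6) (w : Vx m → ℤ) : ℂ :=
  ∑ b : Fin 6, ∏ p, x (ex φ p) (.inr b) ^ w p

/-- contribution of the marked column `i`. -/
noncomputable def head (x : Vx m → Vx m → ℂ) (i : Fin m) (φ : Fin 6 → Fin 6) (v : Vx m → ℤ) : ℂ :=
  ∏ p, x (ex φ p) (.inl i) ^ v p

/-- **The row scheme.** -/
theorem row_scheme (h : Uni x) (M : Mt m) (w v : Vx m → ℤ) (i : Fin m) (c : ℂ)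
    (hw : ∀ σ : Pm, colw x σ w = c * head x i σ v) :
    ∑ j : Fin 6, iv x (addc M w (.inr j)) = c * iv x (addc M v (.inl i)) := by
  unfold iv
  simp only [mon_addc h, ← Finset.mul_sum]
  rw [mul_left_comm]
  congr 1
  rw [Finset.sum_comm, Finset.mul_sum]
  refine Finset.sum_congr rfl fun σ _ => ?_
  rw [Finset.sum_comm, Finset.mul_sum]
  refine Finset.sum_congr rfl fun τ _ => ?_
  rw [← Finset.mul_sum]
  have h1 : ∑ i : Fin 6, ∏ p, x (ex σ p) (ex τ (.inr i)) ^ w p = colw x σ w := by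
    unfold colw
    simp only [ex_inr]
    exact Equiv.sum_comp τ (fun b : Fin 6 => ∏ p, x (ex σ p) (.inr b) ^ w p)
  rw [h1, hw]
  unfold head
  simp only [ex_inl]
  ring

end Vale.Agent.P355.H129T
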